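import Vale.Agent.P233Z.BFin
import Vale.Agent.P233Z.Model

/-!
# P233: Alexandrov length spaces and distributional sectional curvature bounds
-/

open MeasureTheory Set Topology
open scoped NNReal MeasureTheory

universe u

namespace Vale.Agent.Results.P233.ALengthSpaces

open Vale.Agent.P233 Vale.Agent.P233Z

/-- Question 1 of Gigli for the textbook definitions of an `n`-dimensional Alexandrov space as a
length space (items 1 to 5), for the curvature-dimension condition of Sturm (item 6) and a weak form
of the reduced condition (item 7), and for every normalization of the Hausdorff measure. The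
calculus in items 6 and 7 is well defined. -/
theorem result (M : Type u) [MetricSpace M] [CompleteSpace M] [SecondCountableTopology M]
    [MeasurableSpace M] [BorelSpace M] (n : ℕ) (hn : 2 ≤ n) (κ : ℝ) (c : ℝ≥0) (hc : c ≠ 0)
    (m : Measure M) (hm : m = c • μH[n]) :
    List.TFAE [
      IsLength M ∧ dimH (univ : Set M) = n ∧ LocallyCompactSpace M ∧ TriModel M κ,
      IsLength M ∧ dimH (univ : Set M) = n ∧
        ∀ o : M, ∃ U ∈ 𝓝 o, (∀ x ∈ U, ∀ y ∈ U, ∃ γ : ℝ → M, IsSeg γ x y) ∧ TriModel U κ,
      IsLength M ∧ dimH (univ : Set M) = n ∧ FourPoint M κ,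
      IsLength M ∧ dimH (univ : Set M) = n ∧ ∀ o : M, ∃ U ∈ 𝓝 o, FourPoint U κ,
      IsLength M ∧ dimH (univ : Set M) = n ∧ ProperSpace M ∧
        (∀ x y : M, ∃ γ : ℝ → M, IsSeg γ x y) ∧ TriModel M κ,
      IsHilb m ∧ P242.IsCD ((n - 1) * κ) n m ∧ DistSecAll (T.sob m) κ,
      IsHilb m ∧ IsCDb ((n - 1) * κ) n m ∧ DistSecAll (T.sob m) κ] ∧
    ∀ K, IsHilb m → P242.IsCD K n m ∨ IsCDb K n m → WellDef m := by
  simp only [triModel_iff]
  exact final M n hn κ c hc m hm

end Vale.Agent.Results.P233.ALengthSpaces
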